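import Vale.Agent.Lib.P033.Quarter
import Vale.Agent.Lib.P033.FourRun

/-!
# P033: necessary conditions on the first row of a circulant Hadamard matrix, in one theorem

Let `m` be odd and let `h : ZMod (4 * m) → ℤ` generate a circulant Hadamard matrix of order
`n = 4 * m`.  This collects, for that one `h`, the conclusions of the hand-ins `QuarterProduct`,
`RunBounds` and `TwistedReflection` of this folder:

* (A) the quarter products `q j = h j * h (j + m) * h (j + 2 m) * h (j + 3 m)` satisfy the
  counting congruences (1) to (3), the inequality (4), and take both values if `m > 1` (5);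
* (B) a monochromatic arithmetic progression of `R` distinct residues has `R (R + 2) ≤ 4 n` (6),
  and if `m > 1` four cyclically consecutive entries are equal somewhere (7);
* (C) if `m > 1` the first row has no sign-twisted reflection symmetry (8).
-/

namespace Vale.Agent.Results.P033.FirstRowConditions

theorem result (m : ℕ) [NeZero (4 * m)] (hm : Odd m) (h : ZMod (4 * m) → ℤ)
    (hH : (Matrix.circulant h).IsHadamard) :
    (∀ q : ZMod (4 * m) → ℤ,
      (∀ j, q j = h j * h (j + m) * h (j + 2 * m) * h (j + 3 * m)) →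
      (Finset.univ.filter (fun j : ZMod (4 * m) => q j = -1)).card % 16 = (4 * m) % 16 ∧
      (∀ t : ZMod (4 * m), ¬ m ∣ t.val →
        8 ∣ (Finset.univ.filter (fun j : ZMod (4 * m) => q j = -1 ∧ q (j + t) = -1)).card) ∧
      (∀ t : ZMod (4 * m), ¬ m ∣ t.val →
        (Finset.univ.filter (fun j : ZMod (4 * m) => q j = 1 ∧ q (j + t) = 1)).card % 8 = 4) ∧
      16 * (m - 1) + 4 * (Finset.univ.filter (fun j : ZMod (4 * m) => q j = 1)).card ≤
        (Finset.univ.filter (fun j : ZMod (4 * m) => q j = 1)).card ^ 2 ∧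
      (1 < m → (∃ j, q j = 1) ∧ (∃ j, q j = -1))) ∧
    (∀ (a d : ZMod (4 * m)) (R : ℕ),
        (∀ i < R, ∀ i' < R, a + i • d = a + i' • d → i = i') →
        (∀ i < R, h (a + i • d) = h a) →
        R * (R + 2) ≤ 4 * (4 * m)) ∧
    (1 < m → ∃ j : ZMod (4 * m),
        h j = h (j + 1) ∧ h (j + 1) = h (j + 2) ∧ h (j + 2) = h (j + 3)) ∧
    (1 < m → ¬ ∃ (c : ZMod (4 * m)) (ε : ℤ),
        ∀ j : ZMod (4 * m), h (c - j) = ε * (-1) ^ j.val * h j) := by
  refine ⟨fun q hq => ?_, fun a d R hinj hconst => ?_, fun h1 => ?_, fun h1 => ?_⟩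
  · exact ⟨(Vale.Agent.Lib.P033.quarter_main hm h hH q hq).1,
      (Vale.Agent.Lib.P033.quarter_main hm h hH q hq).2.1,
      (Vale.Agent.Lib.P033.quarter_main hm h hH q hq).2.2.1,
      (Vale.Agent.Lib.P033.quarter_main hm h hH q hq).2.2.2,
      fun h1 => Vale.Agent.Lib.P033.quarter_both hm h1 h hH q hq⟩
  · exact Vale.Agent.Lib.P033.ap_bound hH a d R hinj hconst
  · exact Vale.Agent.Lib.P033.four_run (by omega) hH
  · have h8 : ¬ 8 ∣ 4 * m := by
      obtain ⟨k, rfl⟩ := hm
      omega
    exact Vale.Agent.Lib.P033.no_twisted_reflection (by omega) h8 h hH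

end Vale.Agent.Results.P033.FirstRowConditions
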