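import Vale.Agent.Lib.P033.Quarter

namespace Vale.Agent.Results.P033.QuarterProduct

theorem result (m : ℕ) [NeZero (4 * m)] (hm : Odd m) (h : ZMod (4 * m) → ℤ)
    (hH : (Matrix.circulant h).IsHadamard) (q : ZMod (4 * m) → ℤ)
    (hq : ∀ j, q j = h j * h (j + m) * h (j + 2 * m) * h (j + 3 * m)) :
    (Finset.univ.filter (fun j : ZMod (4 * m) => q j = -1)).card % 16 = (4 * m) % 16 ∧
    (∀ t : ZMod (4 * m), ¬ m ∣ t.val →
      8 ∣ (Finset.univ.filter (fun j : ZMod (4 * m) => q j = -1 ∧ q (j + t) = -1)).card) ∧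
    (∀ t : ZMod (4 * m), ¬ m ∣ t.val →
      (Finset.univ.filter (fun j : ZMod (4 * m) => q j = 1 ∧ q (j + t) = 1)).card % 8 = 4) ∧
    16 * (m - 1) + 4 * (Finset.univ.filter (fun j : ZMod (4 * m) => q j = 1)).card ≤
      (Finset.univ.filter (fun j : ZMod (4 * m) => q j = 1)).card ^ 2 ∧
    (1 < m → (∃ j, q j = 1) ∧ (∃ j, q j = -1)) :=
  ⟨(Vale.Agent.Lib.P033.quarter_main hm h hH q hq).1,
    (Vale.Agent.Lib.P033.quarter_main hm h hH q hq).2.1,
    (Vale.Agent.Lib.P033.quarter_main hm h hH q hq).2.2.1,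
    (Vale.Agent.Lib.P033.quarter_main hm h hH q hq).2.2.2,
    fun h1 => Vale.Agent.Lib.P033.quarter_both hm h1 h hH q hq⟩

end Vale.Agent.Results.P033.QuarterProduct
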