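import Vale.Agent.Lib.P033.FourRun

namespace Vale.Agent.Results.P033.RunBounds

theorem result (n : ℕ) [NeZero n] (h : ZMod n → ℤ)
    (hH : (Matrix.circulant h).IsHadamard) :
    (∀ (a d : ZMod n) (R : ℕ),
        (∀ i < R, ∀ i' < R, a + i • d = a + i' • d → i = i') →
        (∀ i < R, h (a + i • d) = h a) →
        R * (R + 2) ≤ 4 * n) ∧
    (4 < n → ∃ j : ZMod n, h j = h (j + 1) ∧ h (j + 1) = h (j + 2) ∧ h (j + 2) = h (j + 3)) :=
  ⟨fun a d R hinj hconst => Vale.Agent.Lib.P033.ap_bound hH a d R hinj hconst,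
    fun hn => Vale.Agent.Lib.P033.four_run hn hH⟩

end Vale.Agent.Results.P033.RunBounds
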