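import Vale.Agent.Lib.P033.TwistedReflection

namespace Vale.Agent.Results.P033.TwistedReflection

theorem result :
    (∃ h : ZMod 4 → ℤ, (Matrix.circulant h).IsHadamard ∧
      ∀ j : ZMod 4, h (-j) = (-1) ^ j.val * h j) ∧
    ∀ (n : ℕ) [NeZero n], 4 < n → ¬ 8 ∣ n → ∀ h : ZMod n → ℤ,
      (Matrix.circulant h).IsHadamard →
      ¬ ∃ (c : ZMod n) (ε : ℤ), ∀ j : ZMod n, h (c - j) = ε * (-1) ^ j.val * h j :=
  ⟨Vale.Agent.Lib.P033.order_four_example,
    fun _ _ hn h8 h hH => Vale.Agent.Lib.P033.no_twisted_reflection hn h8 h hH⟩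

end Vale.Agent.Results.P033.TwistedReflection
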